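import Mathlib
import Vale.Agent.H11.P040Collinear

/-!
# P040: Zarankiewicz's bound for straight-line drawings with one collinear class

We consider straight-line drawings of the complete bipartite graph `K_{m,n}` in the plane
`ℝ × ℝ`: the vertices of the first class are the points `a i`, those of the second class the
points `b j`, and the edge `a i`–`b j` is the segment between them.  We assume that the points
`a i` lie on a common line and that no edge passes through a third vertex.
Then the number of pairs of vertex-disjoint edges that cross is at least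
`⌊m/2⌋⌊(m-1)/2⌋⌊n/2⌋⌊(n-1)/2⌋`.
-/

namespace Vale.Agent.Results.P040.A_CollinearClass

open Finset Vale.Agent.H11.P040

open Classical in
/-- The pairs of vertex-disjoint edges `(a i, b j)`, `(a k, b l)` (with `i < k` and `j ≠ l`, so
that every unordered pair of vertex-disjoint edges is listed exactly once) of the straight-line
drawing of `K_{m,n}` with vertices `a`, `b` whose segments have a common point. -/
noncomputable def crossingPairs {m n : ℕ} (a : Fin m → ℝ × ℝ) (b : Fin n → ℝ × ℝ) :
    Finset ((Fin m × Fin n) × (Fin m × Fin n)) :=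
  Finset.univ.filter (fun q => q.1.1 < q.2.1 ∧ q.1.2 ≠ q.2.2 ∧
    (segment ℝ (a q.1.1) (b q.1.2) ∩ segment ℝ (a q.2.1) (b q.2.2)).Nonempty)

theorem result (m n : ℕ) (a : Fin m → ℝ × ℝ) (b : Fin n → ℝ × ℝ)
    (hcol : Collinear ℝ (Set.range a))
    (hA : ∀ i k j, k ≠ i → a k ∉ segment ℝ (a i) (b j))
    (hB : ∀ i j l, l ≠ j → b l ∉ segment ℝ (a i) (b j)) :
    (m / 2) * ((m - 1) / 2) * ((n / 2) * ((n - 1) / 2)) ≤ (crossingPairs a b).card := by
  classical
  by_cases hm : m ≤ 2
  · have : (m / 2) * ((m - 1) / 2) = 0 := by interval_cases m <;> simp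
    rw [this, zero_mul]; exact Nat.zero_le _
  by_cases hn : n ≤ 2
  · have : (n / 2) * ((n - 1) / 2) = 0 := by interval_cases n <;> simp
    rw [this, mul_zero]; exact Nat.zero_le _
  rw [not_le] at hm hn
  obtain ⟨p, d, hpd⟩ := (collinear_iff_exists_forall_eq_smul_vadd _).1 hcol
  have hex : ∀ i, ∃ r : ℝ, a i = p + r • d := by
    intro i
    obtain ⟨r, hr⟩ := hpd (a i) (Set.mem_range_self i)
    exact ⟨r, by rw [hr, vadd_eq_add, add_comm]⟩
  choose t ha using hex
  let i0 : Fin m := ⟨0, by omega⟩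
  let i1 : Fin m := ⟨1, by omega⟩
  let i2 : Fin m := ⟨2, by omega⟩
  have h01 : i0 ≠ i1 := by simp [i0, i1, Fin.ext_iff]
  have h02 : i0 ≠ i2 := by simp [i0, i2, Fin.ext_iff]
  have h12 : i1 ≠ i2 := by simp [i1, i2, Fin.ext_iff]
  let j0 : Fin n := ⟨0, by omega⟩
  have ht : Function.Injective t := by
    intro i k hik
    by_contra hne
    refine hA i k j0 (Ne.symm hne) ?_
    rw [ha k, ← hik, ← ha i]
    exact left_mem_segment ℝ _ _
  have hd : d ≠ 0 := by
    rintro rfl
    have e : a i1 = a i0 := by rw [ha, ha]; simp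
    refine hA i0 i1 j0 (Ne.symm h01) ?_
    rw [e]
    exact left_mem_segment ℝ _ _
  -- coordinates with respect to `d` and the orthogonal direction `e`
  set e : ℝ × ℝ := (-d.2, d.1) with he
  set N : ℝ := d.1 ^ 2 + d.2 ^ 2 with hN
  have hNpos : 0 < N := by
    have h : d.1 ≠ 0 ∨ d.2 ≠ 0 := by
      by_contra h
      rw [not_or, not_not, not_not] at h
      exact hd (Prod.ext h.1 h.2)
    rcases h with h | h
    · have := sq_pos_of_ne_zero h
      have := sq_nonneg d.2
      rw [hN]; linarith
    · have := sq_pos_of_ne_zero h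
      have := sq_nonneg d.1
      rw [hN]; linarith
  let u : Fin n → ℝ := fun j => (((b j).1 - p.1) * d.1 + ((b j).2 - p.2) * d.2) / N
  let v : Fin n → ℝ := fun j => (-((b j).1 - p.1) * d.2 + ((b j).2 - p.2) * d.1) / N
  have hb : ∀ j, b j = p + u j • d + v j • e := by
    intro j
    have hN' : N ≠ 0 := ne_of_gt hNpos
    ext
    · simp only [u, v, he, Prod.fst_add, Prod.smul_fst, smul_eq_mul]
      field_simp
      rw [hN]; ring
    · simp only [u, v, he, Prod.snd_add, Prod.smul_snd, smul_eq_mul]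
      field_simp
      rw [hN]; ring
  -- no vertex `b j` on the line
  have hv : ∀ j, v j ≠ 0 := by
    intro j hvj
    have hbj : b j = p + u j • d := by rw [hb j, hvj]; simp
    have key : ∀ i k, k ≠ i → ¬ ((t i ≤ t k ∧ t k ≤ u j) ∨ (u j ≤ t k ∧ t k ≤ t i)) := by
      intro i k hki h
      apply hA i k j hki
      rw [ha k, ha i, hbj]
      exact mem_segment_line p d (t i) (u j) (t k) h
    have low : ∀ i k, i ≠ k → t i ≤ u j → t k ≤ u j → False := by
      intro i k hik h1 h2
      rcases le_total (t i) (t k) with h | h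
      · exact key i k (Ne.symm hik) (Or.inl ⟨h, h2⟩)
      · exact key k i hik (Or.inl ⟨h, h1⟩)
    have high : ∀ i k, i ≠ k → u j ≤ t i → u j ≤ t k → False := by
      intro i k hik h1 h2
      rcases le_total (t i) (t k) with h | h
      · exact key k i hik (Or.inr ⟨h1, h⟩)
      · exact key i k (Ne.symm hik) (Or.inr ⟨h2, h⟩)
    rcases le_total (t i0) (u j) with a0 | a0 <;> rcases le_total (t i1) (u j) with a1 | a1 <;>
      rcases le_total (t i2) (u j) with a2 | a2
    · exact low i0 i1 h01 a0 a1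
    · exact low i0 i1 h01 a0 a1
    · exact low i0 i2 h02 a0 a2
    · exact high i1 i2 h12 a1 a2
    · exact low i1 i2 h12 a1 a2
    · exact high i0 i2 h02 a0 a2
    · exact high i0 i1 h01 a0 a1
    · exact high i0 i1 h01 a0 a1
  -- no vertex `a i` on the line through two vertices `b j`, `b l` of the same side
  have hsig : ∀ i j l, j ≠ l → 0 < v j * v l → sig (u j) (v j) (u l) (v l) (t i) ≠ 0 := by
    intro i j l hjl hvv h0
    unfold sig at h0
    have hvj := hv j
    have hvl := hv l
    set lam : ℝ := v l / v j with hlam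
    have hlampos : 0 < lam := by
      have : lam = v j * v l / (v j) ^ 2 := by rw [hlam]; field_simp
      rw [this]
      have := sq_pos_of_ne_zero hvj
      positivity
    have e1 : (1 - lam) * t i + lam * u j = u l := by
      rw [hlam]; field_simp; linarith
    have e2 : lam * v j = v l := by
      rw [hlam]; field_simp
    rcases le_or_gt lam 1 with h1 | h1
    · apply hB i j l (Ne.symm hjl)
      rw [ha i, hb j, hb l]
      refine ⟨1 - lam, lam, by linarith, hlampos.le, by ring, ?_⟩
      linear_combination (norm := module) e1 • d + e2 • e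
    · apply hB i l j hjl
      rw [ha i, hb j, hb l]
      have hl0 : lam ≠ 0 := ne_of_gt hlampos
      refine ⟨1 - 1 / lam, 1 / lam, ?_, by positivity, by ring, ?_⟩
      · have : 1 / lam ≤ 1 := by rw [div_le_one hlampos]; exact h1.le
        linarith
      · have f1 : (1 - 1 / lam) * t i + (1 / lam) * u l = u j := by
          rw [← e1]; field_simp; ring
        have f2 : (1 / lam) * v l = v j := by
          rw [← e2]; field_simp
        linear_combination (norm := module) f1 • d + f2 • e
  -- counting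
  set Sb : Finset (Fin n × Fin n) :=
    Finset.univ.filter (fun q => q.1 < q.2 ∧ (0 < v q.1 ↔ 0 < v q.2)) with hSb
  have hSb_card : (n / 2) * ((n - 1) / 2) ≤ Sb.card := mono_pairs n (fun j => 0 < v j)
  set Sa : Fin n × Fin n → Finset (Fin m × Fin m) := fun q =>
    Finset.univ.filter (fun r => r.1 < r.2 ∧
      (0 < sig (u q.1) (v q.1) (u q.2) (v q.2) (t r.1) ↔
        0 < sig (u q.1) (v q.1) (u q.2) (v q.2) (t r.2))) with hSa
  have hSa_card : ∀ q, (m / 2) * ((m - 1) / 2) ≤ (Sa q).card := fun q =>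
    mono_pairs m (fun i => 0 < sig (u q.1) (v q.1) (u q.2) (v q.2) (t i))
  have hT : (m / 2) * ((m - 1) / 2) * ((n / 2) * ((n - 1) / 2)) ≤ (Sb.sigma Sa).card := by
    rw [Finset.card_sigma]
    calc (m / 2) * ((m - 1) / 2) * ((n / 2) * ((n - 1) / 2))
        ≤ (m / 2) * ((m - 1) / 2) * Sb.card := Nat.mul_le_mul_left _ hSb_card
      _ = ∑ _q ∈ Sb, (m / 2) * ((m - 1) / 2) := by
          rw [Finset.sum_const, smul_eq_mul, mul_comm]
      _ ≤ ∑ q ∈ Sb, (Sa q).card := Finset.sum_le_sum (fun q _ => hSa_card q)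
  let φ : (Σ _ : Fin n × Fin n, Fin m × Fin m) → (Fin m × Fin n) × (Fin m × Fin n) := fun w =>
    if (segment ℝ (a w.2.1) (b w.1.1) ∩ segment ℝ (a w.2.2) (b w.1.2)).Nonempty then
      ((w.2.1, w.1.1), (w.2.2, w.1.2))
    else ((w.2.1, w.1.2), (w.2.2, w.1.1))
  refine le_trans hT (Finset.card_le_card_of_injOn φ ?_ ?_)
  · rintro ⟨⟨j, l⟩, ⟨i, k⟩⟩ hw
    simp only [Finset.coe_sigma, Set.mem_sigma_iff, Finset.mem_coe, hSb, hSa, mem_filter,
      mem_univ, true_and] at hw
    obtain ⟨⟨hjl, hvjl⟩, hik, hs⟩ := hw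
    have hjl' : j ≠ l := ne_of_lt hjl
    have hvv : 0 < v j * v l := same_sign_mul_pos _ _ (hv j) (hv l) hvjl
    have hss : 0 < sig (u j) (v j) (u l) (v l) (t i) * sig (u j) (v j) (u l) (v l) (t k) :=
      same_sign_mul_pos _ _ (hsig i j l hjl' hvv) (hsig k j l hjl' hvv) hs
    have hx : t i ≠ t k := fun h => (ne_of_lt hik) (ht h)
    have hcr := cross_same_side p d e (t i) (t k) (u j) (v j) (u l) (v l) hvv hss hx
    rw [← ha i, ← ha k, ← hb j, ← hb l] at hcr
    simp only [Finset.mem_coe, crossingPairs, mem_filter, mem_univ, true_and, φ]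
    by_cases hc : (segment ℝ (a i) (b j) ∩ segment ℝ (a k) (b l)).Nonempty
    · rw [if_pos hc]
      exact ⟨hik, hjl', hc⟩
    · rw [if_neg hc]
      exact ⟨hik, Ne.symm hjl', hcr.resolve_left hc⟩
  · rintro ⟨⟨j, l⟩, ⟨i, k⟩⟩ hw ⟨⟨j', l'⟩, ⟨i', k'⟩⟩ hw' hφ
    simp only [Finset.coe_sigma, Set.mem_sigma_iff, Finset.mem_coe, hSb, hSa, mem_filter,
      mem_univ, true_and] at hw hw'
    have hjl : j < l := hw.1.1
    have hjl' : j' < l' := hw'.1.1
    simp only [φ] at hφ
    split_ifs at hφ <;> simp only [Prod.mk.injEq] at hφ <;>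
      obtain ⟨⟨r1, r2⟩, r3, r4⟩ := hφ <;> subst r1 <;> subst r3
    · subst r2; subst r4; rfl
    · subst r2; subst r4; exact absurd hjl (lt_asymm hjl')
    · subst r2; subst r4; exact absurd hjl (lt_asymm hjl')
    · subst r2; subst r4; rfl

end Vale.Agent.Results.P040.A_CollinearClass
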