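import Mathlib
import Vale.Agent.H11.P040FourBlock

/-!
# P040: Zarankiewicz's bound for two-page drawings of `K_{m,n}` with four blocks on the spine

A two-page (book) drawing places all vertices on a line (the spine) and draws every edge inside
one of the two half-planes (pages) bounded by the spine.  Two vertex-disjoint edges lying in the
same page cross exactly when their endpoints alternate along the spine, and edges in different
pages never cross.

We consider the two-page drawings of the complete bipartite graph `K_{m,n}` whose spine order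
consists of four blocks `A B A B`:
`a 0, …, a (p-1), b 0, …, b (r-1), a p, …, a (m-1), b r, …, b (n-1)`
(the vertex `a i` sits at position `posA p r i` and the vertex `b j` at position
`posB m p r j`); the page of the edge `a i`–`b j` is `page i j`, an arbitrary Boolean.  We prove
that every such drawing has at least `⌊m/2⌋⌊(m-1)/2⌋⌊n/2⌋⌊(n-1)/2⌋` crossing pairs of edges.
Zarankiewicz's drawings are of this form, so the bound is attained in this class.
-/

namespace Vale.Agent.Results.P040.C_FourBlockTwoPage

open Finset Vale.Agent.H11.P040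

/-- Spine position of the vertex `a i`: the vertices `a 0, …, a (p-1)` occupy the positions
`0, …, p-1`, and `a i` with `p ≤ i` sits at position `r + i`. -/
def posA (p r i : ℕ) : ℕ := if i < p then i else r + i

/-- Spine position of the vertex `b j`: the vertices `b 0, …, b (r-1)` occupy the positions
`p, …, p+r-1`, and `b j` with `r ≤ j` sits at position `m + j`. -/
def posB (m p r j : ℕ) : ℕ := if j < r then p + j else m + j

/-- The position `z` lies strictly between the positions `a` and `b`. -/
def Between (z a b : ℕ) : Prop := (a < z ∧ z < b) ∨ (b < z ∧ z < a)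

/-- The endpoints `a`, `b` of one edge and `a'`, `b'` of another alternate along the spine:
exactly one of `a'`, `b'` lies strictly between `a` and `b`. -/
def Alternate (a b a' b' : ℕ) : Prop :=
  (Between a' a b ∧ ¬ Between b' a b) ∨ (¬ Between a' a b ∧ Between b' a b)

open Classical in
/-- The crossing pairs of edges of the two-page drawing of `K_{m,n}` with spine order
`a 0, …, a (p-1), b 0, …, b (r-1), a p, …, a (m-1), b r, …, b (n-1)` and page assignment
`page`: the pairs of edges `(a i, b j)`, `(a k, b l)` with `i < k` (so that every unordered pair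
of edges with distinct `a`-endpoints is listed exactly once) and `j ≠ l` that lie in the same
page and whose endpoints alternate along the spine. -/
noncomputable def crossingPairs {m n : ℕ} (p r : ℕ) (page : Fin m → Fin n → Bool) :
    Finset ((Fin m × Fin n) × (Fin m × Fin n)) :=
  Finset.univ.filter (fun e => e.1.1 < e.2.1 ∧ e.1.2 ≠ e.2.2 ∧
    page e.1.1 e.1.2 = page e.2.1 e.2.2 ∧
    Alternate (posA p r e.1.1) (posB m p r e.1.2) (posA p r e.2.1) (posB m p r e.2.2))

/-- A combinatorial description of (some) crossing configurations: the edges `a i`–`b j` and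
`a k`–`b l` with `i < k`. -/
def cond4 (p r i j k l : ℕ) : Prop :=
  (j < l ∧ l < r ∧ (k < p ∨ p ≤ i)) ∨ (l < j ∧ j < r ∧ i < p ∧ p ≤ k) ∨ (r ≤ j ∧ j < l) ∨
    (j < r ∧ r ≤ l ∧ k < p) ∨ (l < r ∧ r ≤ j ∧ p ≤ i)

instance (p r i j k l : ℕ) : Decidable (cond4 p r i j k l) := by
  unfold cond4
  infer_instance

theorem alternate_of_cond4 (m p r i j k l : ℕ) (hp : p ≤ m) (hik : i < k) (hk : k < m)
    (h : cond4 p r i j k l) :
    Alternate (posA p r i) (posB m p r j) (posA p r k) (posB m p r l) ∧ j ≠ l := by
  unfold cond4 at h
  unfold Alternate Between posA posB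
  split_ifs <;> omega

/-- The number of crossing configurations between the stars of `b j` and `b l`. -/
def pairCount {m n : ℕ} (p r : ℕ) (page : Fin m → Fin n → Bool) (j l : Fin n) : ℕ :=
  ((univ : Finset (Fin m × Fin m)).filter
    (fun x => x.1 < x.2 ∧ page x.1 j = page x.2 l ∧ cond4 p r x.1 j x.2 l)).card

theorem mem_pairSet {m n : ℕ} (p r : ℕ) (page : Fin m → Fin n → Bool) (j l : Fin n)
    (x : Fin m × Fin m) (h1 : x.1 < x.2) (h2 : page x.1 j = page x.2 l)
    (h3 : cond4 p r x.1 j x.2 l) :
    x ∈ (univ : Finset (Fin m × Fin m)).filter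
      (fun x => x.1 < x.2 ∧ page x.1 j = page x.2 l ∧ cond4 p r x.1 j x.2 l) :=
  Finset.mem_filter.mpr ⟨Finset.mem_univ _, h1, h2, h3⟩

/-- Case `m ≤ 2 p`: the first `a`-block is the large one. -/
theorem caseA (m n p r : ℕ) (page : Fin m → Fin n → Bool) (j l : Fin n) (hjl : j < l) :
    fbQ m p (fun j : Fin n => decide ((j : ℕ) < r)) (fun j i => page i j) j l ≤
      pairCount p r page j l + pairCount p r page l j := by
  classical
  have hjl' : (j : ℕ) < (l : ℕ) := hjl
  unfold fbQ
  by_cases gj : (j : ℕ) < r
  · by_cases gl : (l : ℕ) < r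
    · simp only [decide_eq_true_eq, gj, gl, if_true]
      rw [← Finset.card_filter_add_card_filter_not (fun x : Fin m × Fin m => x.1 < x.2)]
      apply Nat.add_le_add
      · apply Finset.card_le_card
        intro x hx
        rw [Finset.mem_filter, Finset.mem_filter] at hx
        obtain ⟨⟨-, hrk, heq⟩, hlt⟩ := hx
        apply mem_pairSet p r page j l x hlt heq
        have hlt' : (x.1 : ℕ) < (x.2 : ℕ) := hlt
        have := x.2.isLt
        unfold fbRk at hrk
        unfold cond4
        split_ifs at hrk <;> omega
      · apply Finset.card_le_card_of_injOn (fun x : Fin m × Fin m => (x.2, x.1))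
        · intro x hx
          rw [Finset.mem_coe, Finset.mem_filter, Finset.mem_filter] at hx
          obtain ⟨⟨-, hrk, heq⟩, hlt⟩ := hx
          have hlt' : ¬ (x.1 : ℕ) < (x.2 : ℕ) := hlt
          have h1 := x.1.isLt
          have h2 := x.2.isLt
          unfold fbRk at hrk
          apply Finset.mem_coe.mpr
          apply mem_pairSet p r page l j (x.2, x.1)
          · apply Fin.lt_def.mpr
            show (x.2 : ℕ) < (x.1 : ℕ)
            split_ifs at hrk <;> omega
          · exact heq.symm
          · unfold cond4
            show _ ∨ ((j : ℕ) < l ∧ (l : ℕ) < r ∧ (x.2 : ℕ) < p ∧ p ≤ (x.1 : ℕ)) ∨ _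
            split_ifs at hrk <;> omega
        · intro x _ y _ h
          simp only [Prod.mk.injEq] at h
          exact Prod.ext h.2 h.1
    · simp only [decide_eq_true_eq, gj, gl, if_true, if_false]
      apply Nat.add_le_add
      · apply Finset.card_le_card
        intro x hx
        rw [Finset.mem_filter] at hx
        obtain ⟨-, hlt, hP, heq⟩ := hx
        apply mem_pairSet p r page j l x hlt heq
        unfold cond4
        omega
      · apply Finset.card_le_card
        intro x hx
        rw [Finset.mem_filter] at hx
        obtain ⟨-, hP, hlt, heq⟩ := hx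
        apply mem_pairSet p r page l j x hlt heq
        unfold cond4
        omega
  · by_cases gl : (l : ℕ) < r
    · omega
    · simp only [decide_eq_true_eq, gj, gl, if_false]
      refine le_trans ?_ (Nat.le_add_right _ _)
      apply Finset.card_le_card
      intro x hx
      rw [Finset.mem_filter] at hx
      obtain ⟨-, hlt, heq⟩ := hx
      apply mem_pairSet p r page j l x hlt heq
      unfold cond4
      omega

/-- Case `2 p < m`: the second `a`-block is the large one; positions are listed in the order
seen from the first `b`-block. -/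
theorem caseB (m n p r : ℕ) (hp : p ≤ m) (page : Fin m → Fin n → Bool) (j l : Fin n)
    (hjl : j < l) :
    fbQ m (m - p) (fun j : Fin n => decide (r ≤ (j : ℕ)))
        (fun j t => page (fbEquiv m (m - p) (Nat.sub_le m p) t) j) j l ≤
      pairCount p r page j l + pairCount p r page l j := by
  classical
  have hjl' : (j : ℕ) < (l : ℕ) := hjl
  set ρ := fbEquiv m (m - p) (Nat.sub_le m p) with hρ
  have hval : ∀ t : Fin m, ((ρ t : Fin m) : ℕ) = fbRk m (m - p) t := fun t => rfl
  have hinj : ∀ x y : Fin m × Fin m, (ρ x.1, ρ x.2) = (ρ y.1, ρ y.2) → x = y := by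
    intro x y h
    simp only [Prod.mk.injEq, EmbeddingLike.apply_eq_iff_eq] at h
    exact Prod.ext h.1 h.2
  unfold fbQ
  by_cases gj : r ≤ (j : ℕ)
  · by_cases gl : r ≤ (l : ℕ)
    · simp only [decide_eq_true_eq, gj, gl, if_true]
      refine le_trans ?_ (Nat.le_add_right _ _)
      apply Finset.card_le_card_of_injOn (fun x : Fin m × Fin m => (ρ x.1, ρ x.2))
      · intro x hx
        rw [Finset.mem_coe, Finset.mem_filter] at hx
        obtain ⟨-, hrk, heq⟩ := hx
        apply Finset.mem_coe.mpr
        apply mem_pairSet p r page j l (ρ x.1, ρ x.2)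
        · apply Fin.lt_def.mpr
          show ((ρ x.1 : Fin m) : ℕ) < ((ρ x.2 : Fin m) : ℕ)
          rw [hval, hval]
          exact hrk
        · exact heq
        · unfold cond4
          omega
      · intro x _ y _ h
        exact hinj x y h
    · omega
  · by_cases gl : r ≤ (l : ℕ)
    · simp only [decide_eq_true_eq, gj, gl, if_true, if_false]
      rw [add_comm (pairCount p r page j l)]
      apply Nat.add_le_add
      · apply Finset.card_le_card_of_injOn (fun x : Fin m × Fin m => (ρ x.1, ρ x.2))
        · intro x hx
          rw [Finset.mem_coe, Finset.mem_filter] at hx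
          obtain ⟨-, hlt, hP, heq⟩ := hx
          have hlt' : (x.1 : ℕ) < (x.2 : ℕ) := hlt
          have e1 := hval x.1
          have e2 := hval x.2
          unfold fbRk at e1 e2
          rw [if_pos (by omega)] at e1
          rw [if_pos hP] at e2
          apply Finset.mem_coe.mpr
          apply mem_pairSet p r page l j (ρ x.1, ρ x.2)
          · apply Fin.lt_def.mpr
            show ((ρ x.1 : Fin m) : ℕ) < ((ρ x.2 : Fin m) : ℕ)
            omega
          · exact heq
          · unfold cond4
            show _ ∨ _ ∨ _ ∨ _ ∨ ((j : ℕ) < r ∧ r ≤ (l : ℕ) ∧ p ≤ ((ρ x.1 : Fin m) : ℕ))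
            omega
        · intro x _ y _ h
          exact hinj x y h
      · apply Finset.card_le_card_of_injOn (fun x : Fin m × Fin m => (ρ x.1, ρ x.2))
        · intro x hx
          rw [Finset.mem_coe, Finset.mem_filter] at hx
          obtain ⟨-, hP, hlt, heq⟩ := hx
          have hlt' : (x.1 : ℕ) < (x.2 : ℕ) := hlt
          have h2 := x.2.isLt
          have e1 := hval x.1
          have e2 := hval x.2
          unfold fbRk at e1 e2
          rw [if_neg (by omega)] at e1
          rw [if_neg (by omega)] at e2
          apply Finset.mem_coe.mpr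
          apply mem_pairSet p r page j l (ρ x.1, ρ x.2)
          · apply Fin.lt_def.mpr
            show ((ρ x.1 : Fin m) : ℕ) < ((ρ x.2 : Fin m) : ℕ)
            omega
          · exact heq
          · unfold cond4
            show _ ∨ _ ∨ _ ∨ ((j : ℕ) < r ∧ r ≤ (l : ℕ) ∧ ((ρ x.2 : Fin m) : ℕ) < p) ∨ _
            omega
        · intro x _ y _ h
          exact hinj x y h
    · simp only [decide_eq_true_eq, gj, gl, if_false]
      rw [← Finset.card_filter_add_card_filter_not (fun x : Fin m × Fin m => ρ x.1 < ρ x.2)]
      apply Nat.add_le_add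
      · apply Finset.card_le_card_of_injOn (fun x : Fin m × Fin m => (ρ x.1, ρ x.2))
        · intro x hx
          rw [Finset.mem_coe, Finset.mem_filter, Finset.mem_filter] at hx
          obtain ⟨⟨-, hlt, heq⟩, hρlt⟩ := hx
          have hlt' : (x.1 : ℕ) < (x.2 : ℕ) := hlt
          have hρlt' : ((ρ x.1 : Fin m) : ℕ) < ((ρ x.2 : Fin m) : ℕ) := hρlt
          have h2 := x.2.isLt
          have e1 := hval x.1
          have e2 := hval x.2
          unfold fbRk at e1 e2
          apply Finset.mem_coe.mpr
          apply mem_pairSet p r page j l (ρ x.1, ρ x.2) hρlt heq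
          unfold cond4
          show ((j : ℕ) < l ∧ (l : ℕ) < r ∧ (((ρ x.2 : Fin m) : ℕ) < p ∨
            p ≤ ((ρ x.1 : Fin m) : ℕ))) ∨ _
          split_ifs at e1 e2 <;> omega
        · intro x _ y _ h
          exact hinj x y h
      · apply Finset.card_le_card_of_injOn (fun x : Fin m × Fin m => (ρ x.2, ρ x.1))
        · intro x hx
          rw [Finset.mem_coe, Finset.mem_filter, Finset.mem_filter] at hx
          obtain ⟨⟨-, hlt, heq⟩, hρlt⟩ := hx
          have hlt' : (x.1 : ℕ) < (x.2 : ℕ) := hlt
          have hρlt' : ¬ ((ρ x.1 : Fin m) : ℕ) < ((ρ x.2 : Fin m) : ℕ) := hρlt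
          have h2 := x.2.isLt
          have e1 := hval x.1
          have e2 := hval x.2
          unfold fbRk at e1 e2
          apply Finset.mem_coe.mpr
          apply mem_pairSet p r page l j (ρ x.2, ρ x.1)
          · apply Fin.lt_def.mpr
            show ((ρ x.2 : Fin m) : ℕ) < ((ρ x.1 : Fin m) : ℕ)
            split_ifs at e1 e2 <;> omega
          · exact heq.symm
          · unfold cond4
            show _ ∨ ((j : ℕ) < l ∧ (l : ℕ) < r ∧ ((ρ x.2 : Fin m) : ℕ) < p ∧
              p ≤ ((ρ x.1 : Fin m) : ℕ)) ∨ _
            split_ifs at e1 e2 <;> omega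
        · intro x _ y _ h
          simp only [Prod.mk.injEq, EmbeddingLike.apply_eq_iff_eq] at h
          exact Prod.ext h.2 h.1

/-- **Zarankiewicz's bound for four-block two-page drawings of `K_{m,n}`.** -/
theorem result (m n p r : ℕ) (hp : p ≤ m) (page : Fin m → Fin n → Bool) :
    (m / 2) * ((m - 1) / 2) * ((n / 2) * ((n - 1) / 2)) ≤ (crossingPairs p r page).card := by
  classical
  -- the crossing configurations, listed by pairs of `b`-vertices first
  set T : Finset ((Fin n × Fin n) × (Fin m × Fin m)) :=
    Finset.univ.filter (fun q => q.2.1 < q.2.2 ∧ page q.2.1 q.1.1 = page q.2.2 q.1.2 ∧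
      cond4 p r q.2.1 q.1.1 q.2.2 q.1.2) with hT
  have hTle : T.card ≤ (crossingPairs p r page).card := by
    apply Finset.card_le_card_of_injOn
      (fun q : (Fin n × Fin n) × (Fin m × Fin m) => ((q.2.1, q.1.1), (q.2.2, q.1.2)))
    · intro q hq
      have hq' : q ∈ T := hq
      rw [hT, Finset.mem_filter] at hq'
      obtain ⟨-, h1, h2, h3⟩ := hq'
      have hlt : (q.2.1 : ℕ) < (q.2.2 : ℕ) := h1
      have halt := alternate_of_cond4 m p r q.2.1 q.1.1 q.2.2 q.1.2 hp hlt q.2.2.isLt h3
      have hmem : ((q.2.1, q.1.1), (q.2.2, q.1.2)) ∈ crossingPairs p r page := by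
        rw [crossingPairs, Finset.mem_filter]
        refine ⟨Finset.mem_univ _, h1, ?_, h2, halt.1⟩
        intro h
        exact halt.2 (congrArg Fin.val h)
      exact hmem
    · intro q _ q' _ h
      simp only [Prod.mk.injEq] at h
      obtain ⟨⟨e1, e2⟩, e3, e4⟩ := h
      exact Prod.ext (Prod.ext e2 e4) (Prod.ext e1 e3)
  have hTcard : T.card = ∑ y : Fin n × Fin n, pairCount p r page y.1 y.2 := by
    rw [hT]
    unfold pairCount
    simp only [Finset.card_filter]
    rw [Fintype.sum_prod_type]
  have hsym := sum_lt_add_swap_le n (pairCount p r page)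
  have hmain : (m / 2) * ((m - 1) / 2) * ((n / 2) * ((n - 1) / 2)) ≤
      ∑ y ∈ (univ : Finset (Fin n × Fin n)).filter (fun y => y.1 < y.2),
        (pairCount p r page y.1 y.2 + pairCount p r page y.2 y.1) := by
    rcases le_or_gt m (2 * p) with hA | hB
    · refine le_trans (fb_bound m p n hp hA (fun j : Fin n => decide ((j : ℕ) < r))
        (fun j i => page i j)) (Finset.sum_le_sum ?_)
      intro y hy
      exact caseA m n p r page y.1 y.2 (Finset.mem_filter.mp hy).2
    · refine le_trans (fb_bound m (m - p) n (Nat.sub_le m p) (by omega)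
        (fun j : Fin n => decide (r ≤ (j : ℕ)))
        (fun j t => page (fbEquiv m (m - p) (Nat.sub_le m p) t) j)) (Finset.sum_le_sum ?_)
      intro y hy
      exact caseB m n p r hp page y.1 y.2 (Finset.mem_filter.mp hy).2
  calc (m / 2) * ((m - 1) / 2) * ((n / 2) * ((n - 1) / 2))
      ≤ ∑ y ∈ (univ : Finset (Fin n × Fin n)).filter (fun y => y.1 < y.2),
        (pairCount p r page y.1 y.2 + pairCount p r page y.2 y.1) := hmain
    _ ≤ ∑ y : Fin n × Fin n, pairCount p r page y.1 y.2 := hsym
    _ = T.card := hTcard.symm
    _ ≤ (crossingPairs p r page).card := hTle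

end Vale.Agent.Results.P040.C_FourBlockTwoPage
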