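import Mathlib
import Vale.Agent.H11.P040Xor
import Vale.Agent.H11.X2.CoreA
import Vale.Agent.H11.X2.Side
import Vale.Agent.H11.X2.Arith

/-!
# P040: Zarankiewicz's bound for two-page drawings of `K_{m,n}` with two-coloured pages

A two-page (book) drawing places all vertices on a line (the spine) and draws every edge inside
one of the two half-planes (pages) bounded by the spine.  Two vertex-disjoint edges lying in the
same page cross exactly when their endpoints alternate along the spine, and edges in different
pages never cross.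

Here the spine order is **arbitrary**: the vertex `a i` sits at position `posA i` and the vertex
`b j` at position `posB j` (all positions distinct).  The page assignment is given by an
arbitrary 2-colouring `ε` of the vertices `a i` and an arbitrary 2-colouring `η` of the vertices
`b j`: the edge `a i`–`b j` lies in the page `xor (ε i) (η j)`, i.e. in the first page iff its
ends have the same colour.  We prove that every such drawing has at least
`⌊m/2⌋⌊(m-1)/2⌋⌊n/2⌋⌊(n-1)/2⌋` crossing pairs of edges.  Zarankiewicz's drawings are of this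
form (spine order `A⁺ B⁺ A⁻ B⁻`, both colourings balanced).
-/

namespace Vale.Agent.Results.P040.E_XorPagesAllColourings

open Finset Vale.Agent.H11.P040X

/-- The position `z` lies strictly between the positions `a` and `b`. -/
def Between (z a b : ℕ) : Prop := (a < z ∧ z < b) ∨ (b < z ∧ z < a)

/-- The endpoints `a`, `b` of one edge and `a'`, `b'` of another alternate along the spine:
exactly one of `a'`, `b'` lies strictly between `a` and `b`. -/
def Alternate (a b a' b' : ℕ) : Prop :=
  (Between a' a b ∧ ¬ Between b' a b) ∨ (¬ Between a' a b ∧ Between b' a b)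

open Classical in
/-- The crossing pairs of edges of the two-page drawing of `K_{m,n}` in which the vertex `a i`
sits at the spine position `posA i`, the vertex `b j` at the spine position `posB j`, and the
edge `a i`–`b j` is drawn in the page `page i j`: the pairs of edges `(a i, b j)`, `(a k, b l)`
with `i < k` (so that every unordered pair of edges with distinct `a`-endpoints is listed exactly
once) and `j ≠ l` that lie in the same page and whose endpoints alternate along the spine. -/
noncomputable def crossingPairs {m n : ℕ} (posA : Fin m → ℕ) (posB : Fin n → ℕ)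
    (page : Fin m → Fin n → Bool) : Finset ((Fin m × Fin n) × (Fin m × Fin n)) :=
  Finset.univ.filter (fun x => x.1.1 < x.2.1 ∧ x.1.2 ≠ x.2.2 ∧
    page x.1.1 x.1.2 = page x.2.1 x.2.2 ∧
    Alternate (posA x.1.1) (posB x.1.2) (posA x.2.1) (posB x.2.2))

/-- The sign of `a - b` (for `a ≠ b`). -/
def sg (a b : ℕ) : ℤ := if b < a then 1 else -1

theorem sg_mul_self (a b : ℕ) : sg a b * sg a b = 1 := by
  unfold sg
  split_ifs <;> norm_num

/-- For four distinct positions `a, a', b, b'`: the product of the four signs is `1` iff `a, a'`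
are not separated by `b, b'`, iff one of the two pairings `{a b, a' b'}`, `{a b', a' b}`
alternates. -/
theorem alt_sign (a a' b b' : ℕ) (h1 : a ≠ a') (h2 : b ≠ b') (h3 : a ≠ b) (h4 : a ≠ b')
    (h5 : a' ≠ b) (h6 : a' ≠ b') :
    1 + sg a b * sg a b' * sg a' b * sg a' b' =
      2 * (ind (Alternate a b a' b') + ind (Alternate a b' a' b)) := by
  by_cases hA1 : Alternate a b a' b'
  · by_cases hA2 : Alternate a b' a' b
    · exfalso
      unfold Alternate Between at hA1 hA2
      omega
    · rw [ind_pos hA1, ind_neg hA2]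
      unfold Alternate Between at hA1 hA2
      unfold sg
      split_ifs <;> omega
  · by_cases hA2 : Alternate a b' a' b
    · rw [ind_neg hA1, ind_pos hA2]
      unfold Alternate Between at hA1 hA2
      unfold sg
      split_ifs <;> omega
    · rw [ind_neg hA1, ind_neg hA2]
      unfold Alternate Between at hA1 hA2
      unfold sg
      split_ifs <;> omega

theorem alt_symm (a a' b b' : ℕ) (h1 : a ≠ a') (h2 : b ≠ b') (h3 : a ≠ b) (h4 : a ≠ b')
    (h5 : a' ≠ b) (h6 : a' ≠ b') : Alternate a' b' a b ↔ Alternate a b a' b' := by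
  unfold Alternate Between
  omega

/-- The indicator that the edges `a p.1`–`b q.1` and `a p.2`–`b q.2` form a crossing pair. -/
noncomputable def crossInd {m n : ℕ} (posA : Fin m → ℕ) (posB : Fin n → ℕ)
    (ε : Fin m → Bool) (η : Fin n → Bool) (p : Fin m × Fin m) (q : Fin n × Fin n) : ℤ :=
  ind (p.1 < p.2 ∧ q.1 ≠ q.2 ∧ xor (ε p.1) (η q.1) = xor (ε p.2) (η q.2) ∧
    Alternate (posA p.1) (posB q.1) (posA p.2) (posB q.2))

theorem card_eq {m n : ℕ} (posA : Fin m → ℕ) (posB : Fin n → ℕ)
    (ε : Fin m → Bool) (η : Fin n → Bool) :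
    ((crossingPairs posA posB (fun i j => xor (ε i) (η j))).card : ℤ) =
      ∑ p : Fin m × Fin m, ∑ q : Fin n × Fin n, crossInd posA posB ε η p q := by
  unfold crossingPairs
  rw [Finset.card_filter]
  push_cast
  simp only [ite_eq_ind]
  rw [← (Equiv.prodProdProdComm (Fin m) (Fin m) (Fin n) (Fin n)).sum_comp]
  rw [Fintype.sum_prod_type]
  rfl

theorem pointwise {m n : ℕ} (posA : Fin m → ℕ) (posB : Fin n → ℕ)
    (hA : Function.Injective posA) (hB : Function.Injective posB)
    (hAB : ∀ i j, posA i ≠ posB j) (ε : Fin m → Bool) (η : Fin n → Bool)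
    (p : Fin m × Fin m) (q : Fin n × Fin n) :
    od p * od q * ((1 + sg (posA p.1) (posB q.1) * sg (posA p.1) (posB q.2) *
        sg (posA p.2) (posB q.1) * sg (posA p.2) (posB q.2)) *
        (1 + eb (ε p.1) * eb (ε p.2) * eb (η q.1) * eb (η q.2))) =
      4 * (crossInd posA posB ε η p q + crossInd posA posB ε η p q.swap +
        crossInd posA posB ε η p.swap q + crossInd posA posB ε η p.swap q.swap) := by
  obtain ⟨i, k⟩ := p
  obtain ⟨j, l⟩ := q
  simp only [crossInd, Prod.fst_swap, Prod.snd_swap, ind_and]
  by_cases hik : i = k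
  · subst hik
    have h0 : od (i, i) = 0 := by simp [od]
    rw [h0, ind_neg (lt_irrefl i)]
    ring
  by_cases hjl : j = l
  · subst hjl
    have h0 : od (j, j) = 0 := by simp [od]
    rw [h0, ind_neg (fun h : j ≠ j => h rfl)]
    ring
  have hij : posA i ≠ posA k := fun h => hik (hA h)
  have hjl' : posB j ≠ posB l := fun h => hjl (hB h)
  have e1 := alt_sign (posA i) (posA k) (posB j) (posB l) hij hjl' (hAB i j) (hAB i l)
    (hAB k j) (hAB k l)
  have e2 := eb_page (ε i) (ε k) (η j) (η l)
  have s1 : ind (Alternate (posA k) (posB l) (posA i) (posB j)) =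
      ind (Alternate (posA i) (posB j) (posA k) (posB l)) :=
    ind_congr (alt_symm (posA i) (posA k) (posB j) (posB l) hij hjl' (hAB i j) (hAB i l)
      (hAB k j) (hAB k l))
  have s2 : ind (Alternate (posA k) (posB j) (posA i) (posB l)) =
      ind (Alternate (posA i) (posB l) (posA k) (posB j)) :=
    ind_congr (alt_symm (posA i) (posA k) (posB l) (posB j) hij hjl'.symm (hAB i l) (hAB i j)
      (hAB k l) (hAB k j))
  have p1 : ind (xor (ε i) (η l) = xor (ε k) (η j)) =
      ind (xor (ε i) (η j) = xor (ε k) (η l)) := ind_congr (xor_swap_iff _ _ _ _)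
  have p2 : ind (xor (ε k) (η j) = xor (ε i) (η l)) =
      ind (xor (ε i) (η j) = xor (ε k) (η l)) :=
    ind_congr (eq_comm.trans (xor_swap_iff _ _ _ _))
  have p3 : ind (xor (ε k) (η l) = xor (ε i) (η j)) =
      ind (xor (ε i) (η j) = xor (ε k) (η l)) := ind_congr eq_comm
  have o1 : ind (k < i) = 1 - ind (i < k) := by
    rcases lt_or_gt_of_ne hik with h | h
    · rw [ind_pos h, ind_neg (lt_asymm h)]
      norm_num
    · rw [ind_neg (lt_asymm h), ind_pos h]
      norm_num
  have n1 : ind (j ≠ l) = 1 := ind_pos hjl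
  have n2 : ind (l ≠ j) = 1 := ind_pos (Ne.symm hjl)
  have od1 : od (i, k) = 1 := by simp [od, hik]
  have od2 : od (j, l) = 1 := by simp [od, hjl]
  rw [od1, od2, s1, s2, p1, p2, p3, n1, n2, o1, e1, e2]
  ring

theorem sg_antisymm (a b : ℕ) (h : a ≠ b) : sg b a = - sg a b := by
  unfold sg
  split_ifs <;> omega

/-- For three distinct positions `a, b, c` and a fourth position `z` different from them: the
relation `H a b + H b c - H a c = 1` between the separation signs (termwise), written
symmetrically with the order signs. -/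
theorem tri (a b c z : ℕ) (hab : a ≠ b) (hac : a ≠ c) (hbc : b ≠ c) (_hza : z ≠ a)
    (_hzb : z ≠ b) (_hzc : z ≠ c) :
    sg a c * sg b c * (sg a z * sg b z) + sg b a * sg c a * (sg b z * sg c z) +
      sg c b * sg a b * (sg c z * sg a z) = 1 := by
  rw [sg_antisymm a b hab, sg_antisymm a c hac, sg_antisymm b c hbc]
  unfold sg
  split_ifs <;> omega

/-- The same relation with the separation signs seen from the other side. -/
theorem tri' (a b c z : ℕ) (hab : a ≠ b) (hac : a ≠ c) (hbc : b ≠ c) (hza : z ≠ a)
    (hzb : z ≠ b) (hzc : z ≠ c) :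
    sg a c * sg b c * (sg z a * sg z b) + sg b a * sg c a * (sg z b * sg z c) +
      sg c b * sg a b * (sg z c * sg z a) = 1 := by
  rw [sg_antisymm a z (Ne.symm hza), sg_antisymm b z (Ne.symm hzb),
    sg_antisymm c z (Ne.symm hzc)]
  have h := tri a b c z hab hac hbc hza hzb hzc
  linear_combination h

/-- **Zarankiewicz's bound for two-page drawings of `K_{m,n}` with two-coloured pages.**
The spine order is arbitrary (`a i` at position `posA i`, `b j` at position `posB j`, all
distinct), and the edge `a i`–`b j` lies in the page `xor (ε i) (η j)` for arbitrary colourings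
`ε`, `η`. -/
theorem result (m n : ℕ) (posA : Fin m → ℕ) (posB : Fin n → ℕ)
    (hA : Function.Injective posA) (hB : Function.Injective posB)
    (hAB : ∀ i j, posA i ≠ posB j) (ε : Fin m → Bool) (η : Fin n → Bool) :
    (m / 2) * ((m - 1) / 2) * ((n / 2) * ((n - 1) / 2)) ≤
      (crossingPairs posA posB (fun i j => xor (ε i) (η j))).card := by
  -- sixteen times the number of crossings as a sum over ordered pairs of pairs
  have hsum : ∑ p : Fin m × Fin m, ∑ q : Fin n × Fin n,
      od p * od q * ((1 + sg (posA p.1) (posB q.1) * sg (posA p.1) (posB q.2) *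
        sg (posA p.2) (posB q.1) * sg (posA p.2) (posB q.2)) *
        (1 + eb (ε p.1) * eb (ε p.2) * eb (η q.1) * eb (η q.2))) =
      16 * ((crossingPairs posA posB (fun i j => xor (ε i) (η j))).card : ℤ) := by
    rw [card_eq]
    simp only [pointwise posA posB hA hB hAB ε η, ← Finset.mul_sum, Finset.sum_add_distrib]
    have c1 : ∀ p : Fin m × Fin m, ∑ q : Fin n × Fin n, crossInd posA posB ε η p q.swap =
        ∑ q : Fin n × Fin n, crossInd posA posB ε η p q := fun p =>
      (Equiv.prodComm (Fin n) (Fin n)).sum_comp (fun q => crossInd posA posB ε η p q)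
    have c2 : ∀ f : Fin m × Fin m → ℤ, ∑ p : Fin m × Fin m, f p.swap = ∑ p, f p := fun f =>
      (Equiv.prodComm (Fin m) (Fin m)).sum_comp f
    have c3 := c2 (fun p => ∑ q : Fin n × Fin n, crossInd posA posB ε η p q)
    have c4 := c2 (fun p => ∑ q : Fin n × Fin n, crossInd posA posB ε η p q.swap)
    simp only [c1] at c3 c4 ⊢
    rw [c3]
    ring
  have hσ : ∀ (i : Fin m) (j : Fin n), sg (posA i) (posB j) * sg (posA i) (posB j) = 1 :=
    fun i j => sg_mul_self _ _
  have hσ' : ∀ (j : Fin n) (i : Fin m), sg (posA i) (posB j) * sg (posA i) (posB j) = 1 :=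
    fun j i => sg_mul_self _ _
  have hne : ∀ (i k : Fin m), i ≠ k → posA i ≠ posA k := fun i k h h' => h (hA h')
  have hne' : ∀ (j l : Fin n), j ≠ l → posB j ≠ posB l := fun j l h h' => h (hB h')
  -- the two sides
  obtain ⟨SA, hSA, F2, F3, F4⟩ := side (fun t i => sg (posA i) (posA t))
    (fun i j => sg (posA i) (posB j)) hσ (fun t i _ => sg_mul_self _ _)
    (fun i l t hil hit hlt j => tri (posA i) (posA l) (posA t) (posB j) (hne i l hil)
      (hne i t hit) (hne l t hlt) (hAB i j).symm (hAB l j).symm (hAB t j).symm)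
    (fun i l t s hil hit hlt hsi hsl hst => tri (posA i) (posA l) (posA t) (posA s)
      (hne i l hil) (hne i t hit) (hne l t hlt) (hne s i hsi) (hne s l hsl) (hne s t hst))
    ε (fun j => eb (η j)) (fun j => eb_mul_self _)
  obtain ⟨SB, hSB, G2, G3, G4⟩ := side (fun t j => sg (posB j) (posB t))
    (fun j i => sg (posA i) (posB j)) hσ' (fun t j _ => sg_mul_self _ _)
    (fun j l t hjl hjt hlt i => tri' (posB j) (posB l) (posB t) (posA i) (hne' j l hjl)
      (hne' j t hjt) (hne' l t hlt) (hAB i j) (hAB i l) (hAB i t))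
    (fun j l t s hjl hjt hlt hsj hsl hst => tri (posB j) (posB l) (posB t) (posB s)
      (hne' j l hjl) (hne' j t hjt) (hne' l t hlt) (hne' s j hsj) (hne' s l hsl) (hne' s t hst))
    η (fun i => eb (ε i)) (fun i => eb_mul_self _)
  have cA := coreA m n (fun i j => sg (posA i) (posB j)) hσ (fun i => eb (ε i))
    (fun i => eb_mul_self _) (fun j => eb (η j)) (fun j => eb_mul_self _)
  have cB := coreB m n (fun i j => sg (posA i) (posB j)) hσ (fun i => eb (ε i))
    (fun i => eb_mul_self _) (fun j => eb (η j)) (fun j => eb_mul_self _)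
  beta_reduce at hSA hSB cA cB F2 F3 F4 G2 G3 G4
  rw [hSA, hsum] at cA
  rw [hSB, hsum] at cB
  -- the absolute colour imbalances
  have hXv := sum_eb ε
  have hYv := sum_eb η
  have htm : ((Finset.univ : Finset (Fin m)).filter (fun i => ε i = true)).card ≤ m := by
    have := Finset.card_le_univ ((Finset.univ : Finset (Fin m)).filter (fun i => ε i = true))
    simpa using this
  have htn : ((Finset.univ : Finset (Fin n)).filter (fun j => η j = true)).card ≤ n := by
    have := Finset.card_le_univ ((Finset.univ : Finset (Fin n)).filter (fun j => η j = true))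
    simpa using this
  set X := ∑ i, eb (ε i) with hX
  set Y := ∑ j, eb (η j) with hY
  have hxsq : ((X.natAbs : ℕ) : ℤ) ^ 2 = X ^ 2 := Int.natAbs_sq X
  have hysq : ((Y.natAbs : ℕ) : ℤ) ^ 2 = Y ^ 2 := Int.natAbs_sq Y
  have hxm : X.natAbs ≤ m := by omega
  have hyn : Y.natAbs ≤ n := by omega
  have key := arith m n X.natAbs Y.natAbs
    ((crossingPairs posA posB (fun i j => xor (ε i) (η j))).card : ℤ) SA SB
    hxm (by omega) hyn (by omega)
    (by rw [hxsq, hysq]; linarith)
    (by rw [hxsq]; exact F2)
    (by
      intro hlt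
      rw [hxsq, hysq]
      apply F3
      rw [← hxsq]
      have h1 : ((X.natAbs : ℕ) : ℤ) < (m : ℤ) := by exact_mod_cast hlt
      have h2 : (0 : ℤ) ≤ ((X.natAbs : ℕ) : ℤ) := Int.natCast_nonneg _
      nlinarith)
    (by
      intro h1 h2 h3 h4
      apply F4 h1 h2
      · rw [← hxsq, h3]; norm_num
      · rw [← hysq, h4]; norm_num)
    (by rw [hxsq, hysq]; linarith)
    (by rw [hysq]; exact G2)
    (by
      intro hlt
      rw [hxsq, hysq]
      apply G3
      rw [← hysq]
      have h1 : ((Y.natAbs : ℕ) : ℤ) < (n : ℤ) := by exact_mod_cast hlt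
      have h2 : (0 : ℤ) ≤ ((Y.natAbs : ℕ) : ℤ) := Int.natCast_nonneg _
      nlinarith)
  exact_mod_cast key

end Vale.Agent.Results.P040.E_XorPagesAllColourings
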