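import Mathlib
import Vale.Agent.Results.P040.E_XorPagesAllColourings

/-!
# P040: the least number of crossings of two-page drawings of `K_{m,n}` with two-coloured pages

We consider the two-page (book) drawings of `K_{m,n}` with arbitrary spine order whose page
assignment is given by a 2-colouring `ε` of the vertices `a i` and a 2-colouring `η` of the
vertices `b j` (the edge `a i`–`b j` lies in the page `xor (ε i) (η j)`).  The hand-in
`E_XorPagesAllColourings` shows that every such drawing has at least
`⌊m/2⌋⌊(m-1)/2⌋⌊n/2⌋⌊(n-1)/2⌋` crossings.  Here we add that the bound is attained (by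
Zarankiewicz's drawing: spine order `A⁺ B⁺ A⁻ B⁻`, where `A⁺`, `B⁺` are the vertices of even
index), so that the least number of crossings in this class of drawings is exactly
`⌊m/2⌋⌊(m-1)/2⌋⌊n/2⌋⌊(n-1)/2⌋`.
-/

namespace Vale.Agent.Results.P040.D_XorPagesExact

open Finset Vale.Agent.Results.P040.E_XorPagesAllColourings

/-- Spine position of the `i`-th vertex of the first class in Zarankiewicz's drawing. -/
def zA (m n i : ℕ) : ℕ := if i % 2 = 0 then i else m + n + i

/-- Spine position of the `j`-th vertex of the second class in Zarankiewicz's drawing. -/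
def zB (m n j : ℕ) : ℕ := if j % 2 = 0 then m + j else 2 * m + n + j

/-- The colour of a vertex: its index is odd. -/
def zc (i : ℕ) : Bool := decide (i % 2 = 1)

/-- An injective code for the pairs `i < k` of equal parity below `m`, with values in
`[0, m/2) × [0, (m-1)/2)`. -/
def enc (i k : ℕ) : ℕ × ℕ := if i % 2 = 0 then (i / 2, k / 2 - 1) else (k / 2, i / 2)

theorem enc_mem (m i k : ℕ) (hk : k < m) (h1 : i < k) (h2 : i % 2 = k % 2) :
    (enc i k).1 < m / 2 ∧ (enc i k).2 < (m - 1) / 2 := by
  unfold enc
  split_ifs with h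
  · constructor
    · show i / 2 < m / 2
      omega
    · show k / 2 - 1 < (m - 1) / 2
      omega
  · constructor
    · show k / 2 < m / 2
      omega
    · show i / 2 < (m - 1) / 2
      omega

theorem enc_inj (i k i' k' : ℕ) (h1 : i < k) (h2 : i % 2 = k % 2) (h1' : i' < k')
    (h2' : i' % 2 = k' % 2) (h : enc i k = enc i' k') : i = i' ∧ k = k' := by
  unfold enc at h
  split_ifs at h with c1 c2 c2
  · rw [Prod.mk.injEq] at h
    omega
  · rw [Prod.mk.injEq] at h
    omega
  · rw [Prod.mk.injEq] at h
    omega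
  · rw [Prod.mk.injEq] at h
    omega

theorem page_iff (i j k l : ℕ) :
    (xor (zc i) (zc j) = xor (zc k) (zc l)) ↔ (i + j) % 2 = (k + l) % 2 := by
  unfold zc
  rcases Nat.mod_two_eq_zero_or_one i with h1 | h1 <;>
  rcases Nat.mod_two_eq_zero_or_one j with h2 | h2 <;>
  rcases Nat.mod_two_eq_zero_or_one k with h3 | h3 <;>
  rcases Nat.mod_two_eq_zero_or_one l with h4 | h4 <;>
  simp [h1, h2, h3, h4] <;> omega

/-- In Zarankiewicz's drawing two edges that cross join vertices of equal parity in each class. -/
theorem cross_parity (m n i j k l : ℕ) (hi : i < m) (hk : k < m) (hj : j < n) (hl : l < n)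
    (hpage : xor (zc i) (zc j) = xor (zc k) (zc l))
    (halt : Alternate (zA m n i) (zB m n j) (zA m n k) (zB m n l)) :
    i % 2 = k % 2 ∧ j % 2 = l % 2 := by
  have hp := (page_iff i j k l).mp hpage
  unfold Alternate Between zA zB at halt
  split_ifs at halt <;> omega

/-- Of the two pairings of four distinct spine positions at most one alternates. -/
theorem alt_excl (a b a' b' : ℕ) (_h1 : a ≠ a') (h2 : b ≠ b') (h3 : a ≠ b) (h4 : a ≠ b')
    (h5 : a' ≠ b) (h6 : a' ≠ b') : ¬ (Alternate a b a' b' ∧ Alternate a b' a' b) := by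
  unfold Alternate Between
  omega

theorem zA_inj (m n i k : ℕ) (hi : i < m) (hk : k < m) (h : zA m n i = zA m n k) : i = k := by
  unfold zA at h
  split_ifs at h <;> omega

theorem zB_inj (m n j l : ℕ) (hj : j < n) (hl : l < n) (h : zB m n j = zB m n l) : j = l := by
  unfold zB at h
  split_ifs at h <;> omega

theorem zA_ne_zB (m n i j : ℕ) (hi : i < m) (hj : j < n) : zA m n i ≠ zB m n j := by
  unfold zA zB
  split_ifs <;> omega

/-- The code of a crossing pair of edges. -/
def code {m n : ℕ} (x : (Fin m × Fin n) × (Fin m × Fin n)) : (ℕ × ℕ) × (ℕ × ℕ) :=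
  (enc x.1.1.val x.2.1.val,
    if x.1.2.val < x.2.2.val then enc x.1.2.val x.2.2.val else enc x.2.2.val x.1.2.val)

/-- Zarankiewicz's drawing has at most `⌊m/2⌋⌊(m-1)/2⌋⌊n/2⌋⌊(n-1)/2⌋` crossings. -/
theorem zar_le (m n : ℕ) :
    (crossingPairs (fun i : Fin m => zA m n i.val) (fun j : Fin n => zB m n j.val)
      (fun i j => xor (zc i.val) (zc j.val))).card ≤
      (m / 2) * ((m - 1) / 2) * ((n / 2) * ((n - 1) / 2)) := by
  have hcard : ((range (m / 2) ×ˢ range ((m - 1) / 2)) ×ˢ
      (range (n / 2) ×ˢ range ((n - 1) / 2))).card =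
      (m / 2) * ((m - 1) / 2) * ((n / 2) * ((n - 1) / 2)) := by
    simp [Finset.card_product]
  rw [← hcard]
  apply Finset.card_le_card_of_injOn code
  · rintro ⟨⟨i, j⟩, ⟨k, l⟩⟩ hx
    have hx' := Finset.mem_coe.mp hx
    simp only [crossingPairs, Finset.mem_filter, Finset.mem_univ, true_and] at hx'
    obtain ⟨hik, hjl, hpage, halt⟩ := hx'
    have hik' : i.val < k.val := hik
    have hjl' : j.val ≠ l.val := fun h => hjl (Fin.ext h)
    obtain ⟨pa, pb⟩ := cross_parity m n i.val j.val k.val l.val i.isLt k.isLt j.isLt l.isLt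
      hpage halt
    have hA := enc_mem m i.val k.val k.isLt hik' pa
    rw [Finset.mem_coe]
    unfold code
    rw [Finset.mem_product, Finset.mem_product, Finset.mem_product]
    simp only [Finset.mem_range]
    refine ⟨hA, ?_⟩
    split_ifs with hlt
    · exact enc_mem n j.val l.val l.isLt hlt pb
    · exact enc_mem n l.val j.val j.isLt (by omega) pb.symm
  · rintro ⟨⟨i, j⟩, ⟨k, l⟩⟩ hx ⟨⟨i', j'⟩, ⟨k', l'⟩⟩ hy hxy
    have hx' := Finset.mem_coe.mp hx
    have hy' := Finset.mem_coe.mp hy
    simp only [crossingPairs, Finset.mem_filter, Finset.mem_univ, true_and] at hx' hy'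
    obtain ⟨hik, hjl, hpage, halt⟩ := hx'
    obtain ⟨hik2, hjl2, hpage2, halt2⟩ := hy'
    have hik' : i.val < k.val := hik
    have hjl' : j.val ≠ l.val := fun h => hjl (Fin.ext h)
    have hik2' : i'.val < k'.val := hik2
    have hjl2' : j'.val ≠ l'.val := fun h => hjl2 (Fin.ext h)
    obtain ⟨pa, pb⟩ := cross_parity m n i.val j.val k.val l.val i.isLt k.isLt j.isLt l.isLt
      hpage halt
    obtain ⟨pa2, pb2⟩ := cross_parity m n i'.val j'.val k'.val l'.val i'.isLt k'.isLt j'.isLt
      l'.isLt hpage2 halt2
    unfold code at hxy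
    rw [Prod.mk.injEq] at hxy
    obtain ⟨e1, e2⟩ := hxy
    obtain ⟨hi, hk⟩ := enc_inj i.val k.val i'.val k'.val hik' pa hik2' pa2 e1
    have hi' : i = i' := Fin.ext hi
    have hk' : k = k' := Fin.ext hk
    subst hi' hk'
    -- the positions are distinct
    have d1 : zA m n i.val ≠ zA m n k.val := fun h =>
      absurd (zA_inj m n i.val k.val i.isLt k.isLt h) (by omega)
    have d2 : zB m n j.val ≠ zB m n l.val := fun h =>
      hjl' (zB_inj m n j.val l.val j.isLt l.isLt h)
    have d3 := zA_ne_zB m n i.val j.val i.isLt j.isLt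
    have d4 := zA_ne_zB m n i.val l.val i.isLt l.isLt
    have d5 := zA_ne_zB m n k.val j.val k.isLt j.isLt
    have d6 := zA_ne_zB m n k.val l.val k.isLt l.isLt
    have hex := alt_excl (zA m n i.val) (zB m n j.val) (zA m n k.val) (zB m n l.val)
      d1 d2 d3 d4 d5 d6
    by_cases c1 : j.val < l.val
    · by_cases c2 : j'.val < l'.val
      · rw [if_pos c1, if_pos c2] at e2
        obtain ⟨hj, hl⟩ := enc_inj j.val l.val j'.val l'.val c1 pb c2 pb2 e2
        have hj' : j = j' := Fin.ext hj
        have hl' : l = l' := Fin.ext hl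
        subst hj' hl'
        rfl
      · rw [if_pos c1, if_neg c2] at e2
        obtain ⟨hj, hl⟩ := enc_inj j.val l.val l'.val j'.val c1 pb (by omega) pb2.symm e2
        have hj' : j = l' := Fin.ext hj
        have hl' : l = j' := Fin.ext hl
        subst hj' hl'
        exact absurd ⟨halt, halt2⟩ hex
    · by_cases c2 : j'.val < l'.val
      · rw [if_neg c1, if_pos c2] at e2
        obtain ⟨hl, hj⟩ := enc_inj l.val j.val j'.val l'.val (by omega) pb.symm c2 pb2 e2
        have hj' : j = l' := Fin.ext hj
        have hl' : l = j' := Fin.ext hl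
        subst hj' hl'
        exact absurd ⟨halt, halt2⟩ hex
      · rw [if_neg c1, if_neg c2] at e2
        obtain ⟨hl, hj⟩ := enc_inj l.val j.val l'.val j'.val (by omega) pb.symm (by omega)
          pb2.symm e2
        have hj' : j = j' := Fin.ext hj
        have hl' : l = l' := Fin.ext hl
        subst hj' hl'
        rfl

/-- **The least number of crossings of the two-page drawings of `K_{m,n}` with two-coloured
pages is `⌊m/2⌋⌊(m-1)/2⌋⌊n/2⌋⌊(n-1)/2⌋`.**  The drawings range over all spine orders (`a i`
at position `posA i`, `b j` at position `posB j`, all distinct) and all colourings `ε`, `η`; the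
edge `a i`–`b j` lies in the page `xor (ε i) (η j)`. -/
theorem result (m n : ℕ) :
    IsLeast {c : ℕ | ∃ (posA : Fin m → ℕ) (posB : Fin n → ℕ) (ε : Fin m → Bool)
        (η : Fin n → Bool), Function.Injective posA ∧ Function.Injective posB ∧
        (∀ i j, posA i ≠ posB j) ∧
        c = (crossingPairs posA posB (fun i j => xor (ε i) (η j))).card}
      ((m / 2) * ((m - 1) / 2) * ((n / 2) * ((n - 1) / 2))) := by
  constructor
  · have hA : Function.Injective (fun i : Fin m => zA m n i.val) := fun i k h =>
      Fin.ext (zA_inj m n i.val k.val i.isLt k.isLt h)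
    have hB : Function.Injective (fun j : Fin n => zB m n j.val) := fun j l h =>
      Fin.ext (zB_inj m n j.val l.val j.isLt l.isLt h)
    have hAB : ∀ (i : Fin m) (j : Fin n), zA m n i.val ≠ zB m n j.val := fun i j =>
      zA_ne_zB m n i.val j.val i.isLt j.isLt
    refine ⟨fun i => zA m n i.val, fun j => zB m n j.val, fun i => zc i.val, fun j => zc j.val,
      hA, hB, hAB, ?_⟩
    exact le_antisymm
      (Vale.Agent.Results.P040.E_XorPagesAllColourings.result m n _ _ hA hB hAB _ _)
      (zar_le m n)
  · rintro c ⟨posA, posB, ε, η, hA, hB, hAB, rfl⟩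
    exact Vale.Agent.Results.P040.E_XorPagesAllColourings.result m n posA posB hA hB hAB ε η

end Vale.Agent.Results.P040.D_XorPagesExact
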