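import Mathlib
import Vale.Agent.Results.P040.A_CollinearClass
import Vale.Agent.Results.P040.C_FourBlockTwoPage
import Vale.Agent.Results.P040.D_XorPagesExact

/-!
# P040: Zarankiewicz's bound in three classes of drawings of `K_{m,n}`

This hand-in states together the results of the hand-ins `A_CollinearClass`,
`C_FourBlockTwoPage`, `E_XorPagesAllColourings` and `D_XorPagesExact` of this folder.  With
`Z = ⌊m/2⌋⌊(m-1)/2⌋⌊n/2⌋⌊(n-1)/2⌋`:

1. every straight-line drawing of `K_{m,n}` in the plane in which the vertices of one class are
   collinear (and no edge passes through a third vertex) has at least `Z` crossings;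
2. every two-page drawing of `K_{m,n}` with the spine order
   `a 0, …, a (p-1), b 0, …, b (r-1), a p, …, a (m-1), b r, …, b (n-1)` and an arbitrary
   assignment of the edges to the two pages has at least `Z` crossings;
3. every two-page drawing of `K_{m,n}` with arbitrary spine order in which the edge `a i`–`b j`
   lies in the page `xor (ε i) (η j)`, for arbitrary 2-colourings `ε`, `η` of the two classes, has
   at least `Z` crossings;
4. some drawing as in 3 has exactly `Z` crossings.

The definitions below are copies of those of the single hand-ins, so that this file can be read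
on its own; the proof only refers to the four theorems.
-/

namespace Vale.Agent.Results.P040.B_ThreeClasses

open Classical in
/-- The pairs of vertex-disjoint edges `(a i, b j)`, `(a k, b l)` (with `i < k` and `j ≠ l`, so
that every unordered pair of vertex-disjoint edges is listed exactly once) of the straight-line
drawing of `K_{m,n}` with vertices `a`, `b` whose segments have a common point. -/
noncomputable def segmentCrossings {m n : ℕ} (a : Fin m → ℝ × ℝ) (b : Fin n → ℝ × ℝ) :
    Finset ((Fin m × Fin n) × (Fin m × Fin n)) :=
  Finset.univ.filter (fun q => q.1.1 < q.2.1 ∧ q.1.2 ≠ q.2.2 ∧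
    (segment ℝ (a q.1.1) (b q.1.2) ∩ segment ℝ (a q.2.1) (b q.2.2)).Nonempty)

/-- The position `z` lies strictly between the positions `a` and `b`. -/
def Between (z a b : ℕ) : Prop := (a < z ∧ z < b) ∨ (b < z ∧ z < a)

/-- The endpoints `a`, `b` of one edge and `a'`, `b'` of another alternate along the spine:
exactly one of `a'`, `b'` lies strictly between `a` and `b`. -/
def Alternate (a b a' b' : ℕ) : Prop :=
  (Between a' a b ∧ ¬ Between b' a b) ∨ (¬ Between a' a b ∧ Between b' a b)

open Classical in
/-- The crossing pairs of edges of the two-page drawing of `K_{m,n}` in which the vertex `a i`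
sits at the spine position `posA i`, the vertex `b j` at the spine position `posB j`, and the
edge `a i`–`b j` is drawn in the page `page i j`: the pairs of edges `(a i, b j)`, `(a k, b l)`
with `i < k` (so that every unordered pair of edges with distinct `a`-endpoints is listed exactly
once) and `j ≠ l` that lie in the same page and whose endpoints alternate along the spine. -/
noncomputable def pageCrossings {m n : ℕ} (posA : Fin m → ℕ) (posB : Fin n → ℕ)
    (page : Fin m → Fin n → Bool) : Finset ((Fin m × Fin n) × (Fin m × Fin n)) :=
  Finset.univ.filter (fun x => x.1.1 < x.2.1 ∧ x.1.2 ≠ x.2.2 ∧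
    page x.1.1 x.1.2 = page x.2.1 x.2.2 ∧
    Alternate (posA x.1.1) (posB x.1.2) (posA x.2.1) (posB x.2.2))

theorem segmentCrossings_eq {m n : ℕ} (a : Fin m → ℝ × ℝ) (b : Fin n → ℝ × ℝ) :
    segmentCrossings a b = Vale.Agent.Results.P040.A_CollinearClass.crossingPairs a b := rfl

theorem pageCrossings_eq {m n : ℕ} (posA : Fin m → ℕ) (posB : Fin n → ℕ)
    (page : Fin m → Fin n → Bool) :
    pageCrossings posA posB page =
      Vale.Agent.Results.P040.E_XorPagesAllColourings.crossingPairs posA posB page := rfl

theorem pageCrossings_fourBlock {m n : ℕ} (p r : ℕ) (page : Fin m → Fin n → Bool) :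
    pageCrossings (fun i : Fin m => if (i : ℕ) < p then (i : ℕ) else r + i)
        (fun j : Fin n => if (j : ℕ) < r then p + j else m + j) page =
      Vale.Agent.Results.P040.C_FourBlockTwoPage.crossingPairs p r page := rfl

/-- **Zarankiewicz's bound in three classes of drawings of `K_{m,n}`**: straight-line drawings
with one class collinear, two-page drawings with spine order `A B A B` and arbitrary pages, and
two-page drawings with arbitrary spine order and pages `xor (ε i) (η j)`; in the last class the
bound is attained. -/
theorem result (m n Z : ℕ) (hZ : Z = (m / 2) * ((m - 1) / 2) * ((n / 2) * ((n - 1) / 2))) :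
    (∀ (a : Fin m → ℝ × ℝ) (b : Fin n → ℝ × ℝ), Collinear ℝ (Set.range a) →
      (∀ i k j, k ≠ i → a k ∉ segment ℝ (a i) (b j)) →
      (∀ i j l, l ≠ j → b l ∉ segment ℝ (a i) (b j)) →
      Z ≤ (segmentCrossings a b).card) ∧
    (∀ (p r : ℕ), p ≤ m → ∀ page : Fin m → Fin n → Bool,
      Z ≤ (pageCrossings (fun i : Fin m => if (i : ℕ) < p then (i : ℕ) else r + i)
        (fun j : Fin n => if (j : ℕ) < r then p + j else m + j) page).card) ∧
    (∀ (posA : Fin m → ℕ) (posB : Fin n → ℕ), Function.Injective posA →
      Function.Injective posB → (∀ i j, posA i ≠ posB j) →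
      ∀ (ε : Fin m → Bool) (η : Fin n → Bool),
      Z ≤ (pageCrossings posA posB (fun i j => xor (ε i) (η j))).card) ∧
    (∃ (posA : Fin m → ℕ) (posB : Fin n → ℕ) (ε : Fin m → Bool) (η : Fin n → Bool),
      Function.Injective posA ∧ Function.Injective posB ∧ (∀ i j, posA i ≠ posB j) ∧
      (pageCrossings posA posB (fun i j => xor (ε i) (η j))).card = Z) := by
  subst hZ
  refine ⟨?_, ?_, ?_, ?_⟩
  · intro a b hcol hA hB
    rw [segmentCrossings_eq]
    exact Vale.Agent.Results.P040.A_CollinearClass.result m n a b hcol hA hB
  · intro p r hp page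
    rw [pageCrossings_fourBlock]
    exact Vale.Agent.Results.P040.C_FourBlockTwoPage.result m n p r hp page
  · intro posA posB hA hB hAB ε η
    rw [pageCrossings_eq]
    exact Vale.Agent.Results.P040.E_XorPagesAllColourings.result m n posA posB hA hB hAB ε η
  · obtain ⟨posA, posB, ε, η, hA, hB, hAB, hc⟩ :=
      (Vale.Agent.Results.P040.D_XorPagesExact.result m n).1
    exact ⟨posA, posB, ε, η, hA, hB, hAB, by rw [pageCrossings_eq]; exact hc.symm⟩

end Vale.Agent.Results.P040.B_ThreeClasses
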