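import Mathlib
import Vale.Agent.Results.P040.B_ThreeClasses

/-!
# P040: Zarankiewicz's bound in three classes of drawings of `K_{m,n}`, with the minimum

The content of `B_ThreeClasses`, with the third class stated as a minimum.  With
`Z = ⌊m/2⌋⌊(m-1)/2⌋⌊n/2⌋⌊(n-1)/2⌋`:

1. every straight-line drawing of `K_{m,n}` in the plane in which the vertices of one class are
   collinear (and no edge passes through a third vertex) has at least `Z` crossings;
2. every two-page drawing of `K_{m,n}` with the spine order
   `a 0, …, a (p-1), b 0, …, b (r-1), a p, …, a (m-1), b r, …, b (n-1)` and an arbitrary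
   assignment of the edges to the two pages has at least `Z` crossings;
3. among the two-page drawings of `K_{m,n}` with arbitrary spine order in which the edge
   `a i`–`b j` lies in the page `xor (ε i) (η j)`, for arbitrary 2-colourings `ε`, `η` of the two
   classes, the least number of crossings is exactly `Z`.

The definitions are those of `B_ThreeClasses`.
-/

namespace Vale.Agent.Results.P040.B0_ThreeClassesLeast

open Vale.Agent.Results.P040.B_ThreeClasses

/-- **Zarankiewicz's bound in three classes of drawings of `K_{m,n}`**, the third class with its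
minimum: straight-line drawings with one class collinear, two-page drawings with spine order
`A B A B` and arbitrary pages, and two-page drawings with arbitrary spine order and pages
`xor (ε i) (η j)`, where the least number of crossings is exactly `Z`. -/
theorem result (m n Z : ℕ) (hZ : Z = (m / 2) * ((m - 1) / 2) * ((n / 2) * ((n - 1) / 2))) :
    (∀ (a : Fin m → ℝ × ℝ) (b : Fin n → ℝ × ℝ), Collinear ℝ (Set.range a) →
      (∀ i k j, k ≠ i → a k ∉ segment ℝ (a i) (b j)) →
      (∀ i j l, l ≠ j → b l ∉ segment ℝ (a i) (b j)) →
      Z ≤ (segmentCrossings a b).card) ∧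
    (∀ (p r : ℕ), p ≤ m → ∀ page : Fin m → Fin n → Bool,
      Z ≤ (pageCrossings (fun i : Fin m => if (i : ℕ) < p then (i : ℕ) else r + i)
        (fun j : Fin n => if (j : ℕ) < r then p + j else m + j) page).card) ∧
    IsLeast {c : ℕ | ∃ (posA : Fin m → ℕ) (posB : Fin n → ℕ) (ε : Fin m → Bool)
        (η : Fin n → Bool), Function.Injective posA ∧ Function.Injective posB ∧
        (∀ i j, posA i ≠ posB j) ∧
        c = (pageCrossings posA posB (fun i j => xor (ε i) (η j))).card} Z := by
  obtain ⟨h1, h2, h3, posA, posB, ε, η, hA, hB, hAB, hc⟩ :=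
    Vale.Agent.Results.P040.B_ThreeClasses.result m n Z hZ
  refine ⟨h1, h2, ⟨posA, posB, ε, η, hA, hB, hAB, hc.symm⟩, ?_⟩
  rintro c ⟨posA', posB', ε', η', hA', hB', hAB', rfl⟩
  exact h3 posA' posB' hA' hB' hAB' ε' η'

end Vale.Agent.Results.P040.B0_ThreeClassesLeast
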